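import Vale.Agent.P164.Bdl.B18

open Vale.Agent.P164 Set MeasureTheory ProbabilityTheory

universe u

/-- The exact Hausdorff gauge of the SLE trace for all `0 < κ < 8`: it is
`r^(1+κ/8) (log log (1/r))^(1/2-κ/16)`. Such a gauge exists and is good; every gauge comparable to
it near `0` is good; every gauge of smaller order gives measure zero and every gauge of larger
order, in particular Schramm's candidate `r^(1+κ/8) log log (1/r)`, gives infinite measure to all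
segments. -/
theorem Vale.Agent.Results.P164.FullGauge.result (κ : ℝ) (h0 : 0 < κ) (h8 : κ < 8) :
    (∃ h : ℝ → ℝ, IsGauge h ∧
      (∃ r₀ : ℝ, 0 < r₀ ∧ ∀ r : ℝ, 0 < r → r < r₀ →
        h r = r ^ (1 + κ / 8) * Real.log (Real.log (1 / r)) ^ (1 / 2 - κ / 16)) ∧
      Good8.{u} κ h) ∧
    (∀ k : ℝ → ℝ, IsGauge k →
      ((∃ c C r₀ : ℝ, 0 < c ∧ 0 < r₀ ∧ ∀ r : ℝ, 0 < r → r < r₀ →
          c * (r ^ (1 + κ / 8) * Real.log (Real.log (1 / r)) ^ (1 / 2 - κ / 16)) ≤ k r ∧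
          k r ≤ C * (r ^ (1 + κ / 8) * Real.log (Real.log (1 / r)) ^ (1 / 2 - κ / 16))) →
        Good8.{u} κ k) ∧
      ((∀ ε : ℝ, 0 < ε → ∃ δ : ℝ, 0 < δ ∧ ∀ r : ℝ, 0 < r → r ≤ δ →
          k r ≤ ε * (r ^ (1 + κ / 8) * Real.log (Real.log (1 / r)) ^ (1 / 2 - κ / 16))) →
        AllNull8.{u} κ k) ∧
      ((∀ ε : ℝ, 0 < ε → ∃ δ : ℝ, 0 < δ ∧ ∀ r : ℝ, 0 < r → r ≤ δ →
          r ^ (1 + κ / 8) * Real.log (Real.log (1 / r)) ^ (1 / 2 - κ / 16) ≤ ε * k r) →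
        AllInf8.{u} κ k) ∧
      ((∃ r₀ : ℝ, 0 < r₀ ∧ ∀ r : ℝ, 0 < r → r < r₀ →
          k r = r ^ (1 + κ / 8) * Real.log (Real.log (1 / r))) →
        AllInf8.{u} κ k)) :=
  full_of_core h0 h8 fun _ hg hr => good8 h0 h8 hg hr
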